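import Vale.Agent.P225.System.Trunc
import Vale.Agent.P225.Stage.Block
import Vale.Agent.P225.Plan.Defs
import Vale.Agent.P225.Group.Weights

/-!
P225, module F (definitions): one stage of the path on the band. Its reference backward map is the free diagonal
before the control, the interaction map, and the free diagonal after it.
-/

noncomputable section

namespace Vale.Agent.P225

open Matrix SU2 Set NormedSpace
open scoped ComplexOrder Matrix.Norms.L2Operator

/-- The triple of a basis label of a block in gauge `G`. -/
def gaugeTriple (G : Fin 3) (q : ℕ × ℕ) (v : ℕ) : Lbl :=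
  fun k => if k = G then v else if k = G + 1 then q.1 else q.2

/-- The frozen exponent of a block at the product point of its gauge. -/
def prodRate (q : ℕ × ℕ) : ℝ := rootRate (Real.sqrt 3 * (27 / 4) * (cas q.1 + cas q.2))

/-- The weights of the product point. -/
def bandWeight : ℕ × ℕ → ℝ := stageWeight prodRate 5

variable (d : PathData) (r₂ β : ℝ)

/-- A function of the triples, as a block matrix. -/
def diagBlkFun (G : Fin 3) (f : Lbl → ℝ) (q : ℕ × ℕ) : BlkMat q :=
  ∑ x : BlkIdx q, (f (gaugeTriple G q x.1.1) : ℂ) • unitMat q x x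

/-- Start of the control of stage `(i, l)`. -/
def ctrlStart (i l : ℕ) : ℝ := stageStart d i l + 1 / speed (d.j₀ + i)

/-- Free decay between two times. -/
def freeDecay (s t : ℝ) (l : Lbl) : ℝ := ∫ u in s..t, freeRate d r₂ β l u

open Classical in
/-- The reference solution of a block. -/
def blkRef (p : Param) (G : Fin 3) (i l : ℕ) (q : ℕ × ℕ) : ℝ → BlkMat q :=
  if h : ∃ V : ℝ → BlkMat q,
      V (ctrlStart d i l) = diagBlkFun G (fun t => freeRate d r₂ β t (ctrlStart d i l)) q ∧
      IsRiccati (fun t => pathOp d p t q) (pathDamp d) V (ctrlStart d i l) (segEnd d i l) ∧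
        ∀ t ∈ Icc (ctrlStart d i l) (segEnd d i l), (V t).PosSemidef
  then h.choose else 0

open Classical in
/-- Its backward map at the end of the segment. -/
def blkRefBack (p : Param) (G : Fin 3) (i l : ℕ) (q : ℕ × ℕ) : BlkMat q :=
  if h : ∃ R : ℝ → BlkMat q,
      IsBack (blkRef d r₂ β p G i l q) R (ctrlStart d i l) (segEnd d i l)
  then h.choose (segEnd d i l) else 1

/-- The interaction map of the stage on the band blocks. -/
def stageInter (p : Param) (G : Fin 3) (i l : ℕ) : BlkAlg (bandBlocks G) := fun q =>
  blkRefBack d r₂ β p G i l q.1 *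
    diagBlkFun G (fun t => Real.exp (freeDecay d r₂ β (ctrlStart d i l) (segEnd d i l) t)) q.1

/-- The normalised stage map. -/
def stageNorm (p : Param) (G : Fin 3) (i l : ℕ) : BlkAlg (bandBlocks G) :=
  normBlk (stageInter d r₂ β p G i l)

/-- The logarithm of the normalisation, attached to a triple. -/
def stageShift (p : Param) (G : Fin 3) (i l : ℕ) (t : Lbl) : ℝ :=
  Real.log (detScale (t (G + 1), t (G + 2))
    (blkRefBack d r₂ β p G i l (t (G + 1), t (G + 2)) *
      diagBlkFun G (fun u => Real.exp (freeDecay d r₂ β (ctrlStart d i l) (segEnd d i l) u))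
        (t (G + 1), t (G + 2))))

end Vale.Agent.P225
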