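import Vale.Agent.P225.System.StageExact.Near.Free

/-!
P225, module F: one stage of the path on the band (Near): the stage lemma of the blocks applied to
the path, with the drift of the scale as error.
-/

noncomputable section

namespace Vale.Agent.P225

open Matrix SU2 Set NormedSpace
open scoped ComplexOrder Matrix.Norms.L2Operator

variable {d : PathData} {r₂ β φ₀ : ℝ}

namespace StageNear

theorem prodRate_nonneg (q : ℕ × ℕ) : 0 ≤ prodRate q := by
  have h : (0 : ℝ) ≤ Real.sqrt 3 * (27 / 4) * (cas q.1 + cas q.2) :=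
    mul_nonneg (by positivity) (add_nonneg (cas_nonneg' _) (cas_nonneg' _))
  unfold prodRate rootRate
  linarith [Real.le_sqrt_of_sq_le (show (5 : ℝ) ^ 2 ≤
    25 + 4 * (Real.sqrt 3 * (27 / 4) * (cas q.1 + cas q.2)) by linarith)]

/-- The coefficient of a block is continuous in the time. -/
theorem continuous_coef (hd : d.Good r₂ β φ₀) {p : Param} (hp : InBox d p) (i : ℕ) {l : ℕ}
    (hl : l < (d.plan (d.j₀ + i)).length) (q : ℕ × ℕ) :
    Continuous fun t => linkOp (stageQ (d.plan (d.j₀ + i))[l] (speed (d.j₀ + i)) (d.scale t) (p i l)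
      (speed (d.j₀ + i) * (t - stageStart d i l))) q := by
  have h := StageCont.continuous_stageOp (X := Unit) hd i hl (fun _ => p) (fun _ => hp)
    (fun _ => continuous_const) q
  have h2 := h.comp ((continuous_const (y := ())).prodMk continuous_id)
  simp only [Function.comp_def, id_eq] at h2
  exact h2

/-- The reference of a block exists. -/
theorem blkRef_spec (hd : d.Good r₂ β φ₀) {p : Param} (hp : InBox d p) (i : ℕ) {l : ℕ}
    (hl : l < (d.plan (d.j₀ + i)).length) (G : Fin 3) (q : ℕ × ℕ) :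
    ∃ (W Q : ℝ → BlkMat q),
      IsRiccati (fun t => pathOp d p t q) (pathDamp d) W (ctrlStart d i l) (segEnd d i l) ∧
      (∀ t ∈ Icc (ctrlStart d i l) (segEnd d i l), (W t).PosSemidef) ∧
      W (ctrlStart d i l) = freeV d r₂ β G q (ctrlStart d i l) ∧
      IsBack W Q (ctrlStart d i l) (segEnd d i l) ∧
      blkRefBack d r₂ β p G i l q = Q (segEnd d i l) := by
  obtain ⟨-, -, -, hsa, -, hstart⟩ := stage_times hd i hl
  set a := ctrlStart d i l
  set b := segEnd d i l
  have heq : ∀ t ∈ Icc a b, pathOp d p t q =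
      linkOp (stageQ (d.plan (d.j₀ + i))[l] (speed (d.j₀ + i)) (d.scale t) (p i l)
        (speed (d.j₀ + i) * (t - stageStart d i l))) q := fun t ht => by
    rw [pathOp, StageCont.pathQ_seg hd i hl ⟨hsa.trans ht.1, ht.2⟩]
  obtain ⟨V, hV0, hV, hVpos⟩ := exists_riccati
    (A := fun t => linkOp (stageQ (d.plan (d.j₀ + i))[l] (speed (d.j₀ + i)) (d.scale t) (p i l)
      (speed (d.j₀ + i) * (t - stageStart d i l))) q)
    (continuous_coef hd hp i hl q)
    (Free.contDiff_pathDamp hd).continuous
    (fun t => linkOp_psd (StageCont.stageQ_pos hd i hl t hp).posSemidef q)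
    (freeV_pos hd G q (hstart.trans hsa)) a b
  have hex : ∃ V : ℝ → BlkMat q, V a = diagBlkFun G (fun t => freeRate d r₂ β t a) q ∧
      IsRiccati (fun t => pathOp d p t q) (pathDamp d) V a b ∧
        ∀ t ∈ Icc a b, (V t).PosSemidef :=
    ⟨V, hV0, fun t ht => (hV t ht).congr_deriv (by simp only [heq t ht]), hVpos⟩
  have hW : blkRef d r₂ β p G i l q = hex.choose := dif_pos hex
  obtain ⟨h1, h2, h3⟩ := hex.choose_spec
  rw [← hW] at h1 h2 h3
  have hb : ∃ R : ℝ → BlkMat q, IsBack (blkRef d r₂ β p G i l q) R a b :=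
    exists_back fun t ht => (h2 t ht).continuousAt.continuousWithinAt
  exact ⟨_, hb.choose, h2, h3, h1, hb.choose_spec, dif_pos hb⟩

/-- One shape of stage. -/
theorem near_stage (σ : StagePlan) (box : ℝ) :
    ∀ δ > 0, ∃ j₁ : ℕ, ∀ (d : PathData) (r₂ β φ₀ : ℝ), d.box = box → j₁ ≤ d.j₀ →
      d.Good r₂ β φ₀ → ∀ p : Param, InBox d p →
      ∀ (i l : ℕ) (hl : l < (d.plan (d.j₀ + i)).length), (d.plan (d.j₀ + i))[l] = σ →
        IsTarget (stageNorm d r₂ β p σ.gauge i l) ∧
        ‖stageNorm d r₂ β p σ.gauge i l -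
          ctrlWord (bandBlocks σ.gauge) bandWeight σ.letter
            (fun k => 2 * Real.sqrt 3 * (27 / 4) * p i l k)‖ ≤ δ ∧
        ∀ t ∈ band, |stageShift d r₂ β p σ.gauge i l t| ≤ 1 := by
  intro δ hδ
  obtain ⟨Cr, hCr0, hrate⟩ := freeRate_bounds_late
  obtain ⟨Mb, hMb0, hMb⟩ := bump_bounded
  set G := σ.gauge
  -- the constants of the blocks
  let KA : ℕ × ℕ → ℝ := fun q =>
    2 * (|box| * Mb) ^ 2 * (2 * (27 / 4) * |cas q.1 + cas q.2| + 2 * 2 * (27 / 4) * (|box| * Mb) *
      ∑ k, ‖opS q (σ.letter k).1 * opT q (σ.letter k).2‖) +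
    4 * (|box| * Mb) * ∑ k, ‖opS q (σ.letter k).1 * opT q (σ.letter k).2‖
  let KV : ℕ × ℕ → ℝ := fun q =>
    (Cr * Real.sqrt (3 * (cas q.1 + cas q.2)) + prodRate q +
      (1 + 2 * (cas q.1 + cas q.2)) * (1 + prodRate q)) * diagCost q
  let KI : ℕ × ℕ → ℝ := fun q => Cr * Real.sqrt (3 * (cas q.1 + cas q.2)) * diagCost q
  set C : ℝ := 1 + ∑ q ∈ bandBlocks G, (|KA q| + |KV q| + |KI q|) with hC
  have hterm : ∀ q : ℕ × ℕ, 0 ≤ |KA q| + |KV q| + |KI q| := fun q => by positivity
  have hC1 : 1 ≤ C := le_add_of_nonneg_right (Finset.sum_nonneg fun q _ => hterm q)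
  have hCq : ∀ q ∈ bandBlocks G, KA q ≤ C ∧ KV q ≤ C ∧ KI q ≤ C := fun q hq => by
    have h := Finset.single_le_sum (fun r _ => hterm r) hq
    have := le_abs_self (KA q)
    have := le_abs_self (KV q)
    have := le_abs_self (KI q)
    have := abs_nonneg (KA q)
    have := abs_nonneg (KV q)
    have := abs_nonneg (KI q)
    refine ⟨?_, ?_, ?_⟩ <;> linarith
  obtain ⟨C', ε0, hε0, hmain⟩ := blkStage_near (β := bandBlocks G) bump bump_contDiff bump_supp
    bump_integral σ.letter (αs := prodRate) (fun q _ => prodRate_nonneg q) (νs := 5) (by norm_num)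
    C (2 * Real.sqrt 3 * (27 / 4) * |box|)
  set e := min (min ε0 (δ / (|C'| + 1))) (min 1 (1 / (2 * (|box| * Mb) + 1))) with he
  have he0 : 0 < e := by positivity
  obtain ⟨j₁, hj₁⟩ := Filter.eventually_atTop.1 (tendsto_drift.eventually (eventually_le_nhds he0))
  refine ⟨j₁, fun d r₂ β φ₀ hbox hj hd p hp i l hl hσ => ?_⟩
  have hη0 := hj₁ d.j₀ hj
  rw [he, le_min_iff, le_min_iff, le_min_iff] at hη0
  obtain ⟨⟨hη1, hη2⟩, hη3, hη4⟩ := hη0
  obtain ⟨hε, hε1, hst, hsa, hcb, hstart⟩ := stage_times hd i hl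
  rw [hσ] at hcb
  set ε := speed (d.j₀ + i) with hεdef
  set η := drift d.j₀
  set a := ctrlStart d i l with ha
  set b := segEnd d i l
  set st := stageStart d i l with hstdef
  set c := a + (σ.len : ℝ) / ε with hc
  have hεη : ε ≤ η := speed_le_drift hd i
  have hη : 0 < η := hε.trans_le hεη
  have hac : a ≤ c := le_add_of_nonneg_right (by positivity)
  have hB : ∀ k, |p i l k| ≤ |box| := fun k => (hp i l k).trans (hbox ▸ le_abs_self _)
  have hsmall : ε * (|box| * Mb) ≤ 1 / 2 := by
    have h := hεη.trans hη4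
    rw [le_div_iff₀ (by positivity)] at h
    linarith
  have ha_start : startTime r₂ < a := by
    have := hd.pre_late
    unfold startTime
    linarith
  have hst' : ∀ t ∈ Icc a b, (d.j₀ : ℝ) ^ 6 ≤ t := fun t ht => hst.trans (hsa.trans ht.1)
  choose W Q hW hWpos hW0 hQ hQb using fun q : bandBlocks G => blkRef_spec hd hp i hl G q.1
  have hpath : ∀ t ∈ Icc a b, ∀ q, pathOp d p t q =
      linkOp (stageQ σ ε (d.scale t) (p i l) (ε * (t - st))) q := fun t ht q => by
    rw [pathOp, StageCont.pathQ_seg hd i hl ⟨hsa.trans ht.1, ht.2⟩, hσ]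
  have hfree : ∀ t ∈ Icc a b, ∀ q, freeA d G q t =
      linkOp (SU2.adQ G (linePar (d.scale t) (stageTheta σ (ε * (t - st))) G)) q := fun t ht q => by
    rw [freeA, basePar_seg hd i hl ⟨hsa.trans ht.1, ht.2⟩, hσ]
  set x : Fin σ.len → ℝ := fun k => -(2 * Real.sqrt 3 * (27 / 4) * p i l k) with hx
  have hxn : ‖x‖ ≤ 2 * Real.sqrt 3 * (27 / 4) * |box| :=
    (pi_norm_le_iff_of_nonneg (by positivity)).2 fun k => by
      rw [hx, Real.norm_eq_abs, abs_neg, abs_mul, abs_of_nonneg (show (0 : ℝ) ≤
        2 * Real.sqrt 3 * (27 / 4) by positivity)]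
      exact mul_le_mul_of_nonneg_left (hB k) (by positivity)
  obtain ⟨-, -, hνeq, -⟩ := baseCoef_spec hd
  have hνc : Continuous (pathDamp d) := (Free.contDiff_pathDamp hd).continuous
  have hS : IsBlkStage (β := bandBlocks G) bump σ.letter x prodRate 5 C ε η a b
      (fun q t => pathOp d p t q.1) (fun q => freeA d G q.1) W (fun q => freeV d r₂ β G q.1) Q
      (fun q => freeR d r₂ β G q.1 a) (pathDamp d)
      (fun q => freeRate d r₂ β (gaugeTriple G q.1 (q.1.1 + q.1.2))) := by
    refine
      { le := hcb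
        ctrl := fun q => ?_
        free := fun q t ht => ?_
        riccW := hW
        riccV := fun q => freeV_ricc hd G q.1 ha_start.le
        posW := hWpos
        posV := fun q t ht => freeV_pos hd G q.1 (ha_start.le.trans ht.1)
        backQ := hQ
        backR := fun q => freeR_back hd G q.1 ha_start
        contν := hνc.continuousOn
        contA := fun q => ?_
        lowν := fun t ht => ?_
        realA := fun q t ht => ⟨linkOp_real _ _, linkOp_real _ _⟩
        realStart := fun q => diagBlk_real q.1 fun v => freeRate d r₂ β (gaugeTriple G q.1 v) a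
        trivA := fun q hq t ht => ⟨?_, ?_⟩
        trivStart := fun q hq =>
          ⟨_, diagBlk_triv hq fun v => freeRate d r₂ β (gaugeTriple G q.1 v) a⟩ }
    · have hsub : Icc a c ⊆ Icc a b := Icc_subset_Icc le_rfl hcb
      have hnear := free_near hd i hl hCr0.le (fun t ht v hv hv0 =>
        (hrate d r₂ β φ₀ hd t ht v hv hv0).2) (bandBlocks_ne q.2)
      rw [hσ] at hnear
      refine
        { hA := fun t ht => ?_
          hW := fun t ht => hW q t (hsub ht)
          hV := fun t ht => freeV_ricc hd G q.1 (b := b) ha_start.le t (hsub ht)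
          hWpos := fun t ht => hWpos q t (hsub ht)
          hVpos := fun t ht => freeV_pos hd G q.1 (ha_start.le.trans ht.1)
          hQ := ⟨(hQ q).1, fun t ht => (hQ q).2 t (hsub ht)⟩
          hR := freeR_back hd G q.1 ha_start
          start := hW0 q
          hν := hνc.continuousOn
          hα := fun t ht => ((freeRate_spec hd _).2 t
            (ha_start.le.trans ht.1)).continuousAt.continuousWithinAt
          nearν := fun t ht => ?_
          nearV := fun t ht => (hnear.1 t ht).trans ?_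
          nearα := hnear.2.trans ?_ }
      · obtain ⟨n1, n2, -⟩ := late_near hd (hst' t (hsub ht))
        obtain ⟨hP1, hP2⟩ := hd.scale_mem t (by linarith [hst' t (hsub ht)])
        have hs1 : 1 ≤ ε * (t - st) := slow_ge hε ht.1
        have hs2 : ε * (t - st) ≤ σ.len + 1 := slow_le hε (ht.2.trans_eq (by
          rw [ha, ctrlStart, hstdef, hεdef, add_assoc, ← add_div, add_comm (1 : ℝ)]))
        have hθ : stageTheta σ (ε * (t - st)) = 0 := stageTheta_mid σ (by linarith) hs2
        have hprof : ε * (t - a) = ε * (t - st) - 1 := by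
          rw [ha, ctrlStart, hstdef, hεdef, ← sub_sub, mul_sub,
            mul_div_cancel₀ _ (hεdef ▸ hε.ne')]
        rw [hpath t (hsub ht), hfree t (hsub ht), hθ, hprof]
        refine (stage_coef σ q.1 hθ (hd.scale_pos t) hP2 hε.le hε1 hB hMb hsmall).trans ?_
        have hS0 : 0 ≤ ∑ k, ‖opS q.1 (σ.letter k).1 * opT q.1 (σ.letter k).2‖ :=
          Finset.sum_nonneg fun k _ => norm_nonneg _
        refine le_trans ?_ (mul_le_mul_of_nonneg_right
          (mul_le_mul_of_nonneg_right (hCq _ q.2).1 hε.le) hη.le)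
        simp only [KA, add_mul]
        refine add_le_add ?_ ?_
        · rw [sq ε]
          refine le_of_le_of_eq (mul_le_mul_of_nonneg_right
            (mul_le_mul_of_nonneg_left (mul_le_mul_of_nonneg_left hεη hε.le) (by positivity))
            (by positivity)) ?_
          ring
        · refine le_of_le_of_eq (mul_le_mul_of_nonneg_right
            (mul_le_mul_of_nonneg_left n2 hε.le) (by positivity)) ?_
          ring
      · exact ((late_near hd (hst' t (hsub ht))).2.2).trans (le_mul_of_one_le_left hη.le hC1)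
      · rw [mul_comm C]
        exact mul_le_mul_of_nonneg_left (hCq _ q.2).2.1 hη.le
      · rw [mul_comm C]
        exact mul_le_mul_of_nonneg_left (hCq _ q.2).2.2 hη.le
    · have hs : (σ.len : ℝ) + 1 ≤ ε * (t - st) := slow_ge hε (le_of_eq_of_le (by
        rw [ha, ctrlStart, hstdef, hεdef, add_assoc, ← add_div, add_comm (1 : ℝ)]) ht.1)
      rw [hpath t ⟨hac.trans ht.1, ht.2⟩, hfree t ⟨hac.trans ht.1, ht.2⟩,
        stageQ_free σ ε (hd.scale_pos t) _ (stageCtrl_zero σ _ (Or.inr hs))]
    · refine (continuous_coef hd hp i hl q.1).continuousOn.congr fun t ht => ?_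
      simp only [hσ, hpath t ht]
      rfl
    · obtain ⟨h1, -⟩ := hd.nu_mem t (by linarith [hst' t ht])
      rw [hνeq t (by linarith [hst' t ht])]
      linarith
    · rw [hpath t ht]
      exact linkOp_stageQ_triv _ _ _ _ _ hq
    · rw [freeA_eq]
      exact ⟨_, diagBlk_triv hq _⟩
  obtain ⟨-, htgt, hword, hlog, -⟩ := hmain x ε η a b _ _ _ _ _ _ _ _ hε hεη hη1 hxn hS
  have hinter : ∀ q : bandBlocks G, stageInter d r₂ β p G i l q =
      Q q b * (freeR d r₂ β G q.1 a b)⁻¹ := fun q => by
    rw [stageInter, hQb q, freeR_inv]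
  have hnorm : stageNorm d r₂ β p G i l =
      normBlk fun q : bandBlocks G => Q q b * (freeR d r₂ β G q.1 a b)⁻¹ :=
    congrArg normBlk (funext hinter)
  have hneg : -x = fun k : Fin σ.len => 2 * Real.sqrt 3 * (27 / 4) * p i l k := by
    funext k
    simp [hx]
  refine ⟨hnorm ▸ htgt, ?_, fun t ht => ?_⟩
  · rw [hnorm, ← hneg]
    refine hword.trans ?_
    have h2 := hη2
    rw [le_div_iff₀ (by positivity)] at h2
    nlinarith [le_abs_self C', hη.le]
  · have hq : (t (G + 1), t (G + 2)) ∈ bandBlocks G := by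
      unfold bandBlocks
      exact Finset.mem_image.2 ⟨t, ht, rfl⟩
    have h := hlog ⟨_, hq⟩
    rw [← hinter] at h
    exact h

end StageNear

/-- Close to the word, in the target group, with a small shift. -/
theorem stageNorm_near (period : ℕ) (plan : ℕ → List StagePlan) (box : ℝ) :
    ∀ δ > 0, ∃ j₁ : ℕ, ∀ (d : PathData) (r₂ β φ₀ : ℝ), d.period = period → d.plan = plan →
      d.box = box → j₁ ≤ d.j₀ → d.Good r₂ β φ₀ → ∀ p : Param, InBox d p →
      ∀ (i l : ℕ) (hl : l < (d.plan (d.j₀ + i)).length),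
        let σ := (d.plan (d.j₀ + i))[l]
        IsTarget (stageNorm d r₂ β p σ.gauge i l) ∧
        ‖stageNorm d r₂ β p σ.gauge i l -
          ctrlWord (bandBlocks σ.gauge) bandWeight σ.letter
            (fun k => 2 * Real.sqrt 3 * (27 / 4) * p i l k)‖ ≤ δ ∧
        ∀ t ∈ band, |stageShift d r₂ β p σ.gauge i l t| ≤ 1 := by
  classical
  intro δ hδ
  choose N hN using fun σ : StagePlan => StageNear.near_stage σ box δ hδ
  set S := ((List.range period).flatMap plan).toFinset
  refine ⟨S.sup N, ?_⟩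
  intro d r₂ β φ₀ hper hplan hbox hj hd p hp i l hl σ
  refine hN σ d r₂ β φ₀ hbox (le_trans (Finset.le_sup (f := N) ?_) hj) hd p hp i l hl rfl
  have h1 : plan ((d.j₀ + i) % period) = d.plan (d.j₀ + i) := by
    rw [← hper, ← hplan]
    exact Function.Periodic.map_mod_nat (f := d.plan) hd.isPlan.periodic _
  rw [List.mem_toFinset, List.mem_flatMap]
  refine ⟨(d.j₀ + i) % period, List.mem_range.2 (Nat.mod_lt _ (hper ▸ hd.isPlan.period_pos)), ?_⟩
  rw [h1]
  exact List.getElem_mem hl

end Vale.Agent.P225
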