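import Vale.Agent.P225.System.StageExact.Defs
import Vale.Agent.P225.Riccati.Param

/-!
P225, module F: one stage of the path on the band (Cont). The coefficient of the reference equation
of a block is the stage formula on the whole segment, so it depends on the coefficients of that
stage alone; the Riccati solution and its backward map depend continuously on it.
-/

noncomputable section

namespace Vale.Agent.P225

open Matrix SU2 Set NormedSpace
open scoped ComplexOrder Matrix.Norms.L2Operator

namespace StageCont

variable {d : PathData} {r₂ β φ₀ : ℝ}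

/-- The segment of a stage contains the start of its control. -/
theorem ctrlStart_mem (hd : d.Good r₂ β φ₀) (i : ℕ) {l : ℕ}
    (hl : l < (d.plan (d.j₀ + i)).length) :
    ctrlStart d i l ∈ Icc (stageStart d i l) (segEnd d i l) := by
  have hj := hd.j₀_pos
  have hs : 0 < speed (d.j₀ + i) := Sched.speed_pos (by omega)
  have h1 : (1 : ℝ) / speed (d.j₀ + i) ≤ (d.plan (d.j₀ + i))[l].dur / speed (d.j₀ + i) :=
    div_le_div_of_nonneg_right (by linarith [Sched.three_le_dur (d.plan (d.j₀ + i))[l]]) hs.le
  have h2 : stageStart d i (l + 1) ≤ segEnd d i l := by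
    unfold segEnd
    split_ifs
    · exact le_rfl
    · linarith [Sched.stage_le_clusterStart_succ hj i (l + 1)]
  refine ⟨le_add_of_nonneg_right (by positivity), ?_⟩
  rw [Sched.stageStart_succ i hl] at h2
  unfold ctrlStart
  linarith

/-- On the segment, dwell included, the path is the formula of the stage. -/
theorem pathQ_seg (hd : d.Good r₂ β φ₀) (i : ℕ) {l : ℕ} (hl : l < (d.plan (d.j₀ + i)).length)
    {t : ℝ} (ht : t ∈ Icc (stageStart d i l) (segEnd d i l)) (p : Param) :
    pathQ d p t = stageQ (d.plan (d.j₀ + i))[l] (speed (d.j₀ + i)) (d.scale t) (p i l)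
      (speed (d.j₀ + i) * (t - stageStart d i l)) := by
  have hj := hd.j₀_pos
  rcases lt_or_ge t (stageStart d i (l + 1)) with h | h
  · exact Sched.pathQ_of_inStage hj ⟨hl, ht.1, h⟩ p
  have hs : 0 < speed (d.j₀ + i) := Sched.speed_pos (by omega)
  rw [Sched.stageQ_normal _ _ (hd.scale_pos t) _ (Or.inr ?_)]
  swap
  · rw [Sched.stageStart_succ i hl] at h
    have h3 : (d.plan (d.j₀ + i))[l].dur / speed (d.j₀ + i) ≤ t - stageStart d i l := by linarith
    rw [div_le_iff₀ hs] at h3
    linarith [h3]
  by_cases hex : ∃ il, InStage d t il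
  · obtain ⟨⟨i', l'⟩, hil⟩ := hex
    rw [Sched.pathQ_of_inStage hj hil p, Sched.stageQ_normal _ _ (hd.scale_pos t) _ (Or.inl ?_)]
    · rfl
    obtain ⟨hl', h1, h2⟩ := hil
    simp only at hl' h1 h2
    suffices t ≤ stageStart d i' l' by
      rw [le_antisymm this h1, sub_self, mul_zero]
      norm_num
    have hend := ht.2
    rcases lt_trichotomy i' i with hi | rfl | hi
    · have := Sched.stage_le_clusterStart_succ hj i' (l' + 1)
      have : clusterStart d (i' + 1) ≤ clusterStart d i := (Sched.clusterStart_mono hj).monotone hi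
      have := Sched.clusterStart_le_stage hj i (l + 1)
      exfalso
      linarith
    · rcases le_or_gt l' l with hll | hll
      · have := Sched.stageStart_mono hj i' (show l' + 1 ≤ l + 1 by omega)
        exfalso
        linarith
      · have := Sched.stageStart_mono hj i' (show l + 1 ≤ l' by omega)
        unfold segEnd at hend
        rw [if_pos (by omega)] at hend
        linarith
    · have : clusterStart d (i + 1) ≤ clusterStart d i' := (Sched.clusterStart_mono hj).monotone hi
      have := Sched.clusterStart_le_stage hj i' l'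
      have := Sched.stage_le_clusterStart_succ hj i (l + 1)
      unfold segEnd at hend
      split_ifs at hend <;> linarith
  · rw [show pathQ d p t = _ from dif_neg hex, if_pos]
    · rfl
    · exact ((Sched.j_pow_le_clusterStart hj i).trans (Sched.clusterStart_le_stage hj i l)).trans
        ht.1

/-- The stage formula is positive at all times. -/
theorem stageQ_pos (hd : d.Good r₂ β φ₀) (i : ℕ) {l : ℕ} (hl : l < (d.plan (d.j₀ + i)).length)
    (t : ℝ) {p : Param} (hp : InBox d p) :
    (stageQ (d.plan (d.j₀ + i))[l] (speed (d.j₀ + i)) (d.scale t) (p i l)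
      (speed (d.j₀ + i) * (t - stageStart d i l))).PosDef := by
  have hj := hd.j₀_pos
  have hs : 0 < speed (d.j₀ + i) := Sched.speed_pos (by omega)
  have hP := hd.scale_pos t
  by_cases h : InStage d t (i, l)
  · rw [← Sched.pathQ_of_inStage hj h p]
    exact hd.pathQ_pos p hp t
  rw [Sched.stageQ_normal _ _ hP _ ?_]
  · exact Sched.adQ_posDef hP.le hP hP
  rcases lt_or_ge t (stageStart d i l) with h1 | h1
  · left
    have := mul_neg_of_pos_of_neg hs (show t - stageStart d i l < 0 by linarith)
    linarith
  · right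
    have h2 : stageStart d i (l + 1) ≤ t := not_lt.1 fun h2 => h ⟨hl, h1, h2⟩
    rw [Sched.stageStart_succ i hl] at h2
    have h3 : (d.plan (d.j₀ + i))[l].dur / speed (d.j₀ + i) ≤ t - stageStart d i l := by linarith
    rw [div_le_iff₀ hs] at h3
    linarith [h3]

variable {X : Type*} [TopologicalSpace X]

theorem continuous_linePar {P θ : X → ℝ} (hP : Continuous P) (hθ : Continuous θ)
    (h : ∀ x, 0 < 1 + 2 * θ x) (G : Fin 3) :
    Continuous fun x => linePar (P x) (θ x) G := by
  refine continuous_pi fun k => ?_
  have hpre : Continuous fun x => Real.sqrt 3 * P x / Real.sqrt (1 + 2 * θ x) :=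
    (continuous_const.mul hP).div (continuous_const.add (continuous_const.mul hθ)).sqrt
      fun x => (Real.sqrt_pos.2 (h x)).ne'
  simp only [linePar]
  split_ifs
  · exact hpre.mul hθ
  · exact hpre.mul continuous_const

theorem continuous_adQ (G : Fin 3) : Continuous fun P : Fin 3 → ℝ => SU2.adQ G P := by
  refine continuous_pi fun a => continuous_pi fun b => ?_
  simp only [SU2.adQ]
  split_ifs <;> fun_prop

theorem continuous_linkOp (q : ℕ × ℕ) : Continuous fun Q : LinkMat => SU2.linkOp Q q := by
  unfold SU2.linkOp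
  exact (continuous_finsetSum _ fun a _ => continuous_finsetSum _ fun b _ =>
    (Complex.continuous_ofReal.comp (continuous_id.matrix_elem a b)).smul continuous_const).neg

/-- The coefficient of a block is continuous in the parameter and the time. -/
theorem continuous_stageOp (hd : d.Good r₂ β φ₀) (i : ℕ) {l : ℕ}
    (hl : l < (d.plan (d.j₀ + i)).length) (p : X → Param) (hp : ∀ x, InBox d (p x))
    (hc : ∀ k, Continuous fun x => p x i l k) (q : ℕ × ℕ) :
    Continuous fun z : X × ℝ => SU2.linkOp (stageQ (d.plan (d.j₀ + i))[l] (speed (d.j₀ + i))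
      (d.scale z.2) (p z.1 i l) (speed (d.j₀ + i) * (z.2 - stageStart d i l))) q := by
  refine (continuous_linkOp q).comp ?_
  set σ := (d.plan (d.j₀ + i))[l]
  set ε := speed (d.j₀ + i)
  set st := stageStart d i l
  have hs : Continuous fun z : X × ℝ => ε * (z.2 - st) := by fun_prop
  have hP : Continuous fun z : X × ℝ => d.scale z.2 :=
    hd.scale_smooth.continuous.comp continuous_snd
  have hθ : Continuous fun z : X × ℝ => stageTheta σ (ε * (z.2 - st)) :=
    (Sched.contDiff_stageTheta σ).continuous.comp hs
  have hbase : Continuous fun z : X × ℝ =>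
      SU2.adQ σ.gauge (linePar (d.scale z.2) (stageTheta σ (ε * (z.2 - st))) σ.gauge) :=
    (continuous_adQ _).comp (continuous_linePar hP hθ
      (fun z => by linarith [Sched.stageTheta_nonneg σ (ε * (z.2 - st))]) _)
  have hctrl : Continuous fun z : X × ℝ => stageCtrl σ (p z.1 i l) (ε * (z.2 - st)) := by
    unfold stageCtrl
    exact continuous_finsetSum _ fun k _ => (((hc k).comp continuous_fst).mul
      (Sched.contDiff_bump.continuous.comp (hs.sub continuous_const))).smul continuous_const
  have hsum : Continuous fun z : X × ℝ =>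
      SU2.adQ σ.gauge (linePar (d.scale z.2) (stageTheta σ (ε * (z.2 - st))) σ.gauge) +
        (Real.sqrt 3 * d.scale z.2 * ε) • stageCtrl σ (p z.1 i l) (ε * (z.2 - st)) :=
    hbase.add (((continuous_const.mul hP).mul continuous_const).smul hctrl)
  have hB : ∀ z : X × ℝ,
      (SU2.adQ σ.gauge (linePar (d.scale z.2) (stageTheta σ (ε * (z.2 - st))) σ.gauge)).det ≠ 0 :=
    fun z => (Sched.stage_base_posDef σ (hd.scale_pos z.2) _).det_pos.ne'
  have hC : ∀ z : X × ℝ,
      (SU2.adQ σ.gauge (linePar (d.scale z.2) (stageTheta σ (ε * (z.2 - st))) σ.gauge) +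
        (Real.sqrt 3 * d.scale z.2 * ε) • stageCtrl σ (p z.1 i l) (ε * (z.2 - st))).det ≠ 0 :=
    fun z h0 => by
      have h := (stageQ_pos hd i hl z.2 (hp z.1)).det_pos
      simp only [stageQ] at h
      rw [Matrix.det_smul, h0, mul_zero] at h
      exact lt_irrefl _ h
  exact ((hbase.matrix_det.div hsum.matrix_det hC).rpow_const
    fun z => Or.inl (div_ne_zero (hB z) (hC z))).smul hsum

open Classical in
/-- A chosen nonnegative solution and its chosen backward map depend continuously on a parameter. -/
theorem continuous_back_choose {n : Type*} [Fintype n] [DecidableEq n] {a b : ℝ} (hab : a ≤ b)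
    {ν : ℝ → ℝ} (hν : Continuous ν) (B A : X → ℝ → Op n)
    (hA : Continuous fun z : X × ℝ => A z.1 z.2) (hA0 : ∀ x t, (A x t).PosSemidef)
    (heq : ∀ x, ∀ t ∈ Icc a b, B x t = A x t) (W₀ : Op n) (W : X → ℝ → Op n)
    (hW : W = fun x =>
      if h : ∃ V : ℝ → Op n, V a = W₀ ∧ IsRiccati (B x) ν V a b ∧
        ∀ t ∈ Icc a b, (V t).PosSemidef
      then h.choose else 0) :
    Continuous fun x =>
      if h : ∃ R : ℝ → Op n, IsBack (W x) R a b then h.choose b else 1 := by
  by_cases h0 : W₀.PosSemidef
  swap
  · -- no nonnegative solution for any parameter: the reference is constant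
    have hz : W = fun _ => 0 := by
      rw [hW]
      funext x
      refine dif_neg fun ⟨V, h1, _, h3⟩ => h0 ?_
      have h4 := h3 a (left_mem_Icc.2 hab)
      rwa [h1] at h4
    subst hz
    exact continuous_const
  have hex : ∀ x, ∃ V : ℝ → Op n, V a = W₀ ∧ IsRiccati (B x) ν V a b ∧
      ∀ t ∈ Icc a b, (V t).PosSemidef := fun x => by
    obtain ⟨V, h1, h2, h3⟩ := exists_riccati (A := A x)
      (hA.comp (continuous_const.prodMk continuous_id)) hν (hA0 x) h0 a b
    exact ⟨V, h1, fun t ht => (h2 t ht).congr_deriv (by rw [heq x t ht]), h3⟩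
  have hspec : ∀ x, W x a = W₀ ∧ IsRiccati (A x) ν (W x) a b ∧
      ∀ t ∈ Icc a b, (W x t).PosSemidef := fun x => by
    rw [show W x = (hex x).choose by rw [hW]; exact dif_pos (hex x)]
    obtain ⟨h1, h2, h3⟩ := (hex x).choose_spec
    exact ⟨h1, fun t ht => (h2 t ht).congr_deriv (by rw [heq x t ht]), h3⟩
  have hWc : ContinuousOn (fun z : X × ℝ => W z.1 z.2) (univ ×ˢ Icc a b) :=
    riccati_param A hA hν.continuousOn W (fun x => (hspec x).2.1) (fun x => (hspec x).2.2)
      ((continuous_const (y := W₀)).congr fun x => ((hspec x).1).symm)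
  have hex2 : ∀ x, ∃ R : ℝ → Op n, IsBack (W x) R a b := fun x =>
    exists_back fun t ht => ((hspec x).2.1 t ht).continuousAt.continuousWithinAt
  have hR := back_param W (fun x => (hex2 x).choose) hWc fun x => (hex2 x).choose_spec
  refine (hR.comp_continuous (continuous_id.prodMk (continuous_const (y := b)))
    fun x => ⟨trivial, hab, le_rfl⟩).congr fun x => ?_
  rw [dif_pos (hex2 x)]
  rfl

/-- The backward map of the reference of a block depends continuously on the coefficients. -/
theorem continuous_blkRefBack (hd : d.Good r₂ β φ₀) (i : ℕ) {l : ℕ}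
    (hl : l < (d.plan (d.j₀ + i)).length) (p : X → Param) (hp : ∀ x, InBox d (p x))
    (hc : ∀ k, Continuous fun x => p x i l k) (G : Fin 3) (q : ℕ × ℕ) :
    Continuous fun x => blkRefBack d r₂ β (p x) G i l q := by
  obtain ⟨hsa, hab⟩ := ctrlStart_mem hd i hl
  unfold blkRefBack
  exact continuous_back_choose hab (baseCoef_spec hd).2.1.continuous
    (fun x t => pathOp d (p x) t q) _ (continuous_stageOp hd i hl p hp hc q)
    (fun x t => SU2.linkOp_psd (stageQ_pos hd i hl t (hp x)).posSemidef q)
    (fun x t ht => by rw [pathOp, pathQ_seg hd i hl ⟨hsa.trans ht.1, ht.2⟩]) _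
    (fun x => blkRef d r₂ β (p x) G i l q) rfl

end StageCont

variable {d : PathData} {r₂ β φ₀ : ℝ}

/-- Continuous in the coefficients of that stage alone. -/
theorem stageNorm_continuous (hd : d.Good r₂ β φ₀) (i : ℕ) {l : ℕ}
    (hl : l < (d.plan (d.j₀ + i)).length) {X : Type*} [TopologicalSpace X] (p : X → Param)
    (hp : ∀ x, InBox d (p x)) (hc : ∀ k, Continuous fun x => p x i l k)
    (hsmall : ∀ x (q : bandBlocks ((d.plan (d.j₀ + i))[l]).gauge),
      0 < ((stageInter d r₂ β (p x) ((d.plan (d.j₀ + i))[l]).gauge i l) q).det.re) :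
    Continuous (fun x => stageNorm d r₂ β (p x) ((d.plan (d.j₀ + i))[l]).gauge i l) ∧
      ∀ t ∈ band, Continuous
        (fun x => stageShift d r₂ β (p x) ((d.plan (d.j₀ + i))[l]).gauge i l t) := by
  set G := ((d.plan (d.j₀ + i))[l]).gauge
  have hM : Continuous fun x => stageInter d r₂ β (p x) G i l :=
    continuous_pi fun q =>
      (StageCont.continuous_blkRefBack hd i hl p hp hc G q.1).mul continuous_const
  refine ⟨normBlk_continuousOn.comp_continuous hM fun x q => hsmall x q, fun t ht => ?_⟩
  have hq : (t (G + 1), t (G + 2)) ∈ bandBlocks G := by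
    unfold bandBlocks
    exact Finset.mem_image.2 ⟨t, ht, rfl⟩
  have hdet : Continuous fun x => ((stageInter d r₂ β (p x) G i l) ⟨_, hq⟩).det.re :=
    Complex.continuous_re.comp ((continuous_apply (⟨_, hq⟩ : bandBlocks G)).comp hM).matrix_det
  exact (hdet.rpow_const fun x => Or.inl (hsmall x ⟨_, hq⟩).ne').log
    fun x => (Real.rpow_pos_of_pos (hsmall x ⟨_, hq⟩) _).ne'

end Vale.Agent.P225
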