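import Vale.Agent.P225.System.StageExact.Defs

/-!
P225, module F: one stage of the path on the band (Band).
-/

noncomputable section

namespace Vale.Agent.P225

open Matrix SU2 Set NormedSpace
open scoped ComplexOrder Matrix.Norms.L2Operator

variable {d : PathData} {r₂ β φ₀ : ℝ}

namespace Band

open Vale.Agent.P225.Trunc

theorem adQ_const (G G' : Fin 3) (s : ℝ) :
    adQ G (fun _ => s) = adQ G' (fun _ => s) := by
  ext α γ
  simp [adQ]

/-- The link is at the normal point from the end of a stage to the end of its segment. -/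
theorem pathQ_tail (hd : d.Good r₂ β φ₀) (p : Param) {i l : ℕ}
    (hl : l < (d.plan (d.j₀ + i)).length) (G : Fin 3) {t : ℝ}
    (h : t ∈ Icc (stageStart d i (l + 1)) (segEnd d i l)) :
    pathQ d p t = adQ G fun _ => d.scale t := by
  have hstart : ∀ i' l', l' < (d.plan (d.j₀ + i')).length →
      pathQ d p (stageStart d i' l') = adQ G fun _ => d.scale (stageStart d i' l') := by
    intro i' l' hl'
    obtain ⟨-, hQ⟩ := pathQ_inStage hd hl' ⟨le_rfl, stageStart_lt_succ hd hl'⟩ p
    rw [hQ, sub_self, mul_zero, stageQ_free _ _ (hd.scale_pos _) _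
      (stageCtrl_eq_zero _ _ (Or.inl zero_le_one)), stageTheta_zero, linePar_one]
    exact adQ_const _ _ _
  rcases segEnd_cases hl with ⟨hlt, he⟩ | ⟨hlast, he⟩
  · obtain rfl : t = stageStart d i (l + 1) := le_antisymm (he ▸ h.2) h.1
    exact hstart i (l + 1) hlt
  · rw [hlast, he] at h
    rcases h.2.lt_or_eq with hlt | rfl
    · obtain ⟨-, hQ⟩ := pathQ_outside hd p (not_inStage_dwell hd ⟨h.1, hlt⟩)
      rw [hQ, if_pos ((stageStart_ge hd le_rfl).trans h.1)]
      exact adQ_const _ _ _
    · rw [← stageStart_zero]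
      exact hstart (i + 1) 0 (List.length_pos_of_ne_nil (hd.isPlan.nonempty _))

/-- On a segment the truncated operator is the lift of the block operators in the gauge of its
stage. -/
theorem truncOp_seg (hd : d.Good r₂ β φ₀) (p : Param) (K : ℕ) {i l : ℕ}
    (hl : l < (d.plan (d.j₀ + i)).length) {t : ℝ} (h : t ∈ Icc (segStart d i l) (segEnd d i l)) :
    truncOp d p K t = gaugeMat K ((d.plan (d.j₀ + i))[l]).gauge (pathOp d p t) := by
  by_cases ht : t < stageStart d i (l + 1)
  · rw [truncOp, (pathQ_inStage hd hl ⟨h.1, ht⟩ p).1]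
  · have hQ := fun G => pathQ_tail hd p hl G (t := t) ⟨not_lt.1 ht, h.2⟩
    rw [truncOp, pathOp]
    nth_rw 1 [hQ (pathGauge d t)]
    rw [gaugeMat_adQ, hQ ((d.plan (d.j₀ + i))[l]).gauge, gaugeMat_adQ]

theorem stage_le (hd : d.Good r₂ β φ₀) {i l : ℕ} (hl : l < (d.plan (d.j₀ + i)).length) :
    stageStart d i (l + 1) ≤ segEnd d i l := by
  rcases segEnd_cases hl with ⟨-, he⟩ | ⟨-, he⟩ <;> rw [he]
  exact (stageStart_lt_cluster hd (Nat.succ_le_of_lt hl)).le

/-- The link matrices are continuous on a segment. -/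
theorem pathQ_cont (hd : d.Good r₂ β φ₀) {p : Param} (hp : InBox d p) {i l : ℕ}
    (hl : l < (d.plan (d.j₀ + i)).length) :
    ContinuousOn (pathQ d p) (Icc (segStart d i l) (segEnd d i l)) := by
  set σ := (d.plan (d.j₀ + i))[l] with hσ
  set ε := speed (d.j₀ + i) with hε
  set t₀ := segStart d i l
  rw [← Icc_union_Icc_eq_Icc (stageStart_lt_succ hd hl).le (stage_le hd hl)]
  refine ContinuousOn.union_of_isClosed ?_ ?_ isClosed_Icc isClosed_Icc
  swap
  · refine ContinuousOn.congr ?_ fun t ht => pathQ_tail hd p hl σ.gauge ht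
    refine (continuous_pi fun a => continuous_pi fun b => ?_).continuousOn
    have := hd.scale_smooth.continuous
    unfold adQ
    split_ifs <;> fun_prop
  have heq : ∀ t ∈ Icc t₀ (stageStart d i (l + 1)),
      pathQ d p t = stageQ σ ε (d.scale t) (p i l) (ε * (t - t₀)) := by
    intro t ht
    rcases ht.2.lt_or_eq with hlt | rfl
    · exact (pathQ_inStage hd hl ⟨ht.1, hlt⟩ p).2
    · have hend : ε * (stageStart d i (l + 1) - t₀) = σ.dur := by
        show ε * (stageStart d i (l + 1) - stageStart d i l) = σ.dur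
        rw [stageStart_succ hl, add_sub_cancel_left, mul_div_cancel₀]
        exact (speed_pos (one_le_idx hd i)).ne'
      rw [pathQ_tail hd p hl σ.gauge ⟨le_rfl, stage_le hd hl⟩, hend,
        stageQ_free _ _ (hd.scale_pos _) _ (stageCtrl_eq_zero _ _ (Or.inr ?_)), stageTheta_dur,
        linePar_one]
      have : (0 : ℝ) ≤ σ.wait + σ.dwell := by positivity
      simp only [StagePlan.dur]; linarith
  refine ContinuousOn.congr ?_ heq
  intro t ht
  refine ContinuousAt.continuousWithinAt ?_
  have hsc : Continuous d.scale := hd.scale_smooth.continuous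
  have hθ := stageTheta_continuous σ
  have hbase : Continuous fun t =>
      adQ σ.gauge (linePar (d.scale t) (stageTheta σ (ε * (t - t₀))) σ.gauge) := by
    refine continuous_pi fun a => continuous_pi fun b => ?_
    have hl' : ∀ k, Continuous fun t =>
        linePar (d.scale t) (stageTheta σ (ε * (t - t₀))) σ.gauge k := by
      intro k
      unfold linePar
      refine (((continuous_const.mul hsc).div (by fun_prop) fun u => ?_)).mul ?_
      · have := (stageTheta_mem σ (ε * (u - t₀))).1
        positivity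
      · split_ifs <;> fun_prop
    unfold adQ
    split_ifs <;> fun_prop
  have hctrl : Continuous fun t => stageCtrl σ (p i l) (ε * (t - t₀)) := by
    unfold stageCtrl
    exact continuous_finsetSum _ fun k _ =>
      (continuous_const.mul (bump_continuous.comp (by fun_prop))).smul continuous_const
  have hQ := hbase.add
    ((((continuous_const (y := Real.sqrt 3)).mul hsc).mul (continuous_const (y := ε))).smul hctrl)
  have hpos : (stageQ σ ε (d.scale t) (p i l) (ε * (t - t₀))).PosDef := by
    rw [← heq t ht]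
    exact hd.pathQ_pos p hp t
  set B := adQ σ.gauge (linePar (d.scale t) (stageTheta σ (ε * (t - t₀))) σ.gauge)
  have hQ0 : (B + (Real.sqrt 3 * d.scale t * ε) • stageCtrl σ (p i l) (ε * (t - t₀))).det ≠ 0 := by
    intro h0
    apply hpos.det_pos.ne'
    show (((B.det / (B + (Real.sqrt 3 * d.scale t * ε) •
      stageCtrl σ (p i l) (ε * (t - t₀))).det) ^ (1 / 6 : ℝ)) •
      (B + (Real.sqrt 3 * d.scale t * ε) • stageCtrl σ (p i l) (ε * (t - t₀)))).det = 0
    rw [det_smul, h0, mul_zero]
  have hB0 : B.det ≠ 0 :=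
    (line_posDef (hd.scale_pos _) (stageTheta_mem _ _).1 (stageTheta_mem _ _).2 _).det_pos.ne'
  exact (((hbase.matrix_det.continuousAt (x := t)).div hQ.matrix_det.continuousAt hQ0).rpow_const
    (p := (1 / 6 : ℝ)) (Or.inl (div_ne_zero hB0 hQ0))).smul hQ.continuousAt

theorem ctrl_mem (hd : d.Good r₂ β φ₀) {i l : ℕ} (hl : l < (d.plan (d.j₀ + i)).length) :
    segStart d i l ≤ ctrlStart d i l ∧ ctrlStart d i l ≤ segEnd d i l ∧
      ctrlStart d i l < stageStart d i (l + 1) := by
  have hε := speed_pos (one_le_idx hd i)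
  have h1 : ctrlStart d i l < stageStart d i (l + 1) := by
    rw [ctrlStart, stageStart_succ hl]
    gcongr
    linarith [three_le_dur ((d.plan (d.j₀ + i))[l])]
  refine ⟨?_, h1.le.trans (stage_le hd hl), h1⟩
  show stageStart d i l ≤ ctrlStart d i l
  rw [ctrlStart, le_add_iff_nonneg_right]
  positivity

theorem diagBlkFun_eq (G : Fin 3) (f : Lbl → ℝ) (q : ℕ × ℕ) :
    diagBlkFun G f q = diagBlk q fun v => f (gaugeTriple G q v) := rfl

theorem diagBlkFun_psd (G : Fin 3) (q : ℕ × ℕ) {f : Lbl → ℝ} (h : ∀ u, 0 ≤ f u) :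
    (diagBlkFun G f q).PosSemidef := by
  rw [diagBlkFun_eq]
  exact diagBlk_posSemidef (f := fun v => f (gaugeTriple G q v)) fun x => h _

theorem linkOp_continuous (q : ℕ × ℕ) : Continuous fun Q : LinkMat => linkOp Q q := by
  unfold linkOp
  fun_prop

theorem pathOp_psd (hd : d.Good r₂ β φ₀) {p : Param} (hp : InBox d p) (t : ℝ) (q : ℕ × ℕ) :
    (pathOp d p t q).PosSemidef := by
  have hQ := hd.pathQ_pos p hp t
  have h := linkOp_ge (q := 0) (Q := pathQ d p t)
    (by simpa [Matrix.IsHermitian, Matrix.IsSymm] using hQ.isHermitian)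
    (by simpa using hQ.posSemidef) q
  simpa [pathOp] using h

/-- Riccati solutions of an operator given on an interval only. -/
theorem exists_riccati_on {n : Type*} [Fintype n] [DecidableEq n] {A : ℝ → Op n} {ν : ℝ → ℝ}
    {a b : ℝ} (hab : a ≤ b) (hA : ContinuousOn A (Icc a b)) (hν : Continuous ν)
    (hA0 : ∀ t ∈ Icc a b, (A t).PosSemidef) {W0 : Op n} (hW0 : W0.PosSemidef) :
    ∃ W : ℝ → Op n, W a = W0 ∧ IsRiccati A ν W a b ∧ ∀ t ∈ Icc a b, (W t).PosSemidef := by
  obtain ⟨W, h0, hW, hWp⟩ := exists_riccati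
    (A := IccExtend hab ((Icc a b).domRestrict A)) (hA.domRestrict.Icc_extend' : Continuous _) hν
    (fun t => hA0 _ (projIcc a b hab t).2) hW0 a b
  refine ⟨W, h0, fun t ht => ?_, hWp⟩
  simpa [IccExtend_of_mem hab _ ht] using hW t ht

/-- The reference solution of a block. -/
theorem blkRef_spec (hd : d.Good r₂ β φ₀) {p : Param} (hp : InBox d p) (i : ℕ) {l : ℕ}
    (hl : l < (d.plan (d.j₀ + i)).length) (G : Fin 3) (q : ℕ × ℕ) :
    blkRef d r₂ β p G i l q (ctrlStart d i l) =
        diagBlkFun G (fun t => freeRate d r₂ β t (ctrlStart d i l)) q ∧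
      IsRiccati (fun t => pathOp d p t q) (pathDamp d) (blkRef d r₂ β p G i l q) (ctrlStart d i l)
        (segEnd d i l) ∧
      (∀ t ∈ Icc (ctrlStart d i l) (segEnd d i l), (blkRef d r₂ β p G i l q t).PosSemidef) ∧
      ∃ R, IsBack (blkRef d r₂ β p G i l q) R (ctrlStart d i l) (segEnd d i l) ∧
        R (segEnd d i l) = blkRefBack d r₂ β p G i l q := by
  obtain ⟨hac, hcb, -⟩ := ctrl_mem hd hl
  have hA : ContinuousOn (fun t => pathOp d p t q) (Icc (ctrlStart d i l) (segEnd d i l)) :=
    (linkOp_continuous q).comp_continuousOn ((pathQ_cont hd hp hl).mono (Icc_subset_Icc hac le_rfl))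
  obtain ⟨W, hW0, hW, hWp⟩ := exists_riccati_on hcb hA (pathDamp_cont hd)
    (fun t _ => pathOp_psd hd hp t q) (W0 := diagBlkFun G (fun t => freeRate d r₂ β t (ctrlStart d i l)) q)
    (diagBlkFun_psd G q fun u => freeRate_nonneg hd u ((seg_times hd hl).2.2.2.2.trans hac))
  have h : ∃ V : ℝ → BlkMat q,
      V (ctrlStart d i l) = diagBlkFun G (fun t => freeRate d r₂ β t (ctrlStart d i l)) q ∧
      IsRiccati (fun t => pathOp d p t q) (pathDamp d) V (ctrlStart d i l) (segEnd d i l) ∧
        ∀ t ∈ Icc (ctrlStart d i l) (segEnd d i l), (V t).PosSemidef := ⟨W, hW0, hW, hWp⟩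
  have hV : blkRef d r₂ β p G i l q = h.choose := dif_pos h
  obtain ⟨s1, s2, s3⟩ := h.choose_spec
  rw [← hV] at s1 s2 s3
  have h' : ∃ R : ℝ → BlkMat q,
      IsBack (blkRef d r₂ β p G i l q) R (ctrlStart d i l) (segEnd d i l) :=
    exists_back (riccati_cont s2)
  refine ⟨s1, s2, s3, h'.choose, h'.choose_spec, ?_⟩
  rw [blkRefBack, dif_pos h']

/-- The determinant of a backward map of a Hermitian solution is positive. -/
theorem back_det_pos {n : Type*} [Fintype n] [DecidableEq n] {W R : ℝ → Op n} {a b : ℝ}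
    (hab : a ≤ b) (hW : ContinuousOn W (Icc a b)) (hh : ∀ t ∈ Icc a b, (W t).IsHermitian)
    (hR : IsBack W R a b) : 0 < (R b).det := by
  obtain ⟨D, hD, hd⟩ := det_hasStrictFDerivAt_one (n := n)
  have hder : ∀ t ∈ Icc a b,
      HasDerivAt (fun s => (R s).det) (-((R t).det * (W t).trace)) t := by
    intro t ht
    obtain ⟨u, hu⟩ := back_isUnit hW hR t ht
    have h1 : HasDerivAt (fun s => ((↑u⁻¹ : Op n) * R s).det) (-(W t).trace) t := by
      have h0 := (hR.2 t ht).const_mul (↑u⁻¹ : Op n)
      refine (hd.hasFDerivAt.comp_hasDerivAt_of_eq t h0 (by rw [← hu, Units.inv_mul])).congr_deriv ?_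
      rw [hD, ← hu, mul_neg, ← mul_assoc, Units.inv_mul, one_mul, Matrix.trace_neg]
    have e : (fun s => (R s).det) = fun s => (R t).det * ((↑u⁻¹ : Op n) * R s).det := by
      funext s
      rw [← Matrix.det_mul, ← mul_assoc, ← hu, Units.mul_inv, one_mul]
    rw [e]
    refine (h1.const_mul (R t).det).congr_deriv ?_
    rw [mul_neg]
  have hcont : ContinuousOn (fun s => (R s).det) (Icc a b) := fun t ht =>
    (hder t ht).continuousAt.continuousWithinAt
  have htr : ∀ t ∈ Icc a b, (W t).trace.im = 0 := fun t ht => by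
    have h := congrArg Complex.im (Matrix.trace_conjTranspose (W t))
    rw [(hh t ht).eq, Complex.star_def, Complex.conj_im] at h
    linarith
  have him : ∀ t ∈ Icc a b, (R t).det.im = 0 := by
    refine eq_zero_of_deriv_le (f := fun s => (R s).det.im)
      (f' := fun s => -((R s).det.im * (W s).trace.re)) (K := fun s => |(W s).trace.re|)
      (fun s hs => ?_) ?_ (fun s hs => ?_) (by simp [hR.1])
    · refine (Complex.imCLM.hasFDerivAt.comp_hasDerivAt s (hder s hs)).congr_deriv ?_
      simp [htr s hs]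
    · exact (Complex.continuous_re.comp_continuousOn
        ((continuous_id.matrix_trace).comp_continuousOn hW)).abs
    · rw [norm_neg, norm_mul, Real.norm_eq_abs, Real.norm_eq_abs, mul_comm]
  have hne : ∀ t ∈ Icc a b, (R t).det.re ≠ 0 := fun t ht h0 =>
    ((isUnit_iff_isUnit_det _).1 (back_isUnit hW hR t ht)).ne_zero
      (Complex.ext h0 (him t ht))
  refine Complex.lt_def.2 ⟨?_, by simp [him b (right_mem_Icc.2 hab)]⟩
  by_contra hcon
  rw [Complex.zero_re, not_lt] at hcon
  obtain ⟨s, hs, h0⟩ := intermediate_value_Icc' hab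
    (Complex.continuous_re.comp_continuousOn hcont) (show (0 : ℝ) ∈ Icc _ _ from
      ⟨hcon, by simp [hR.1]⟩)
  exact hne s hs h0

theorem diagBlk_one (q : ℕ × ℕ) : diagBlk q (fun _ => (1 : ℝ)) = 1 :=
  blk_ext fun x => by rw [diagBlk_mulVec, Complex.ofReal_one, one_smul, one_mulVec]

theorem diagBlk_exp_inv (q : ℕ × ℕ) (g : ℕ → ℝ) :
    (diagBlk q fun v => Real.exp (g v)) * (diagBlk q fun v => Real.exp (-g v)) = 1 := by
  rw [diagBlk_mul, ← diagBlk_one q]
  simp only [← Real.exp_add, add_neg_cancel, Real.exp_zero]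

/-- The normalising scalar of a block is positive. -/
theorem detScale_pos (hd : d.Good r₂ β φ₀) {p : Param} (hp : InBox d p) (i : ℕ) {l : ℕ}
    (hl : l < (d.plan (d.j₀ + i)).length) (G : Fin 3) (q : ℕ × ℕ) (g : Lbl → ℝ) :
    0 < detScale q (blkRefBack d r₂ β p G i l q * diagBlkFun G (fun t => Real.exp (g t)) q) := by
  obtain ⟨-, hV, hVp, R, hR, hRb⟩ := blkRef_spec hd hp i hl G q
  have h1 := back_det_pos (ctrl_mem hd hl).2.1 (riccati_cont hV)
    (fun t ht => (hVp t ht).isHermitian) hR
  have h2 : 0 < (diagBlkFun G (fun t => Real.exp (g t)) q).det := by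
    refine lt_of_le_of_ne ((diagBlkFun_psd G q fun u => (Real.exp_pos (g u)).le).det_nonneg) (Ne.symm ?_)
    intro h0
    have := congrArg Matrix.det (diagBlk_exp_inv q fun v => g (gaugeTriple G q v))
    rw [Matrix.det_mul, Matrix.det_one] at this
    rw [diagBlkFun_eq] at h0
    rw [h0, zero_mul] at this
    exact zero_ne_one this
  rw [hRb] at h1
  have h3 := mul_pos h1 h2
  rw [← Matrix.det_mul] at h3
  unfold detScale
  exact Real.rpow_pos_of_pos (Complex.lt_def.1 h3).1 _

/-- The backward map of a block, from the normalised stage map. -/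
theorem blkRefBack_eq (hd : d.Good r₂ β φ₀) {p : Param} (hp : InBox d p) (i : ℕ) {l : ℕ}
    (hl : l < (d.plan (d.j₀ + i)).length) (G : Fin 3) {t : Lbl} {q : ℕ × ℕ}
    (hq : q ∈ bandBlocks G) (ht : (t (G + 1), t (G + 2)) = q) :
    blkRefBack d r₂ β p G i l q = Real.exp (-stageShift d r₂ β p G i l t) •
      (extBlk (stageNorm d r₂ β p G i l) q *
        diagBlk q fun v => Real.exp (-freeDecay d r₂ β (ctrlStart d i l) (segEnd d i l)
          (gaugeTriple G q v))) := by
  subst ht
  set q : ℕ × ℕ := (t (G + 1), t (G + 2))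
  have hpos := detScale_pos hd hp i hl G q
    (fun u => freeDecay d r₂ β (ctrlStart d i l) (segEnd d i l) u)
  rw [extBlk, dif_pos hq, stageNorm, normBlk, stageInter, smul_mul_assoc, smul_smul,
    show stageShift d r₂ β p G i l t = Real.log (detScale q
      (blkRefBack d r₂ β p G i l q * diagBlkFun G
        (fun u => Real.exp (freeDecay d r₂ β (ctrlStart d i l) (segEnd d i l) u)) q)) from rfl,
    Real.exp_neg, Real.exp_log hpos, inv_mul_cancel₀ hpos.ne', one_smul, diagBlkFun_eq, mul_assoc,
    diagBlk_exp_inv, mul_one]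

theorem freeDecay_deriv (hd : d.Good r₂ β φ₀) (u : Lbl) {a t : ℝ} (ha : (d.j₀ : ℝ) ^ 6 ≤ a)
    (hat : a ≤ t) : HasDerivAt (fun s => freeDecay d r₂ β a s u) (freeRate d r₂ β u t) t := by
  have hlate := hd.pre_late
  have h0 : startTime r₂ < a := by unfold startTime; linarith
  have hc : ∀ s, startTime r₂ ≤ s → ContinuousAt (freeRate d r₂ β u) s := fun s hs =>
    ((freeRate_spec hd u).2 s hs).continuousAt
  refine intervalIntegral.integral_hasDerivAt_right ?_ ?_ (hc t (h0.le.trans hat))
  · refine ContinuousOn.intervalIntegrable fun s hs => (hc s ?_).continuousWithinAt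
    rw [uIcc_of_le hat] at hs
    exact h0.le.trans hs.1
  · exact ContinuousOn.stronglyMeasurableAtFilter isOpen_Ioi
      (fun s hs => (hc s (le_of_lt hs)).continuousWithinAt) t (h0.trans_le hat)

theorem gaugeTriple_lab (G : Fin 3) (x : Pnt) :
    gaugeTriple G (blkLab G x) (lab x G) = lab x := by
  funext k
  have h : G + 1 ≠ G ∧ G + 2 ≠ G ∧ G + 2 ≠ G + 1 := by revert G; decide
  rcases fin3_cases G k with rfl | rfl | rfl <;> simp [gaugeTriple, h.1, h.2.1, h.2.2]

/-- The backward map of a segment is the free diagonal times the lift of the block maps. -/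
theorem segBack_lift (hd : d.Good r₂ β φ₀) {p : Param} (hp : InBox d p) {K : ℕ} (i : ℕ) {l : ℕ}
    (hl : l < (d.plan (d.j₀ + i)).length) (u v : PntK K) :
    (¬SameBlk ((d.plan (d.j₀ + i))[l]).gauge u.out v.out →
      segBack d r₂ β p K i l (segEnd d i l) u v = 0) ∧
    (Complete K ((d.plan (d.j₀ + i))[l]).gauge u →
      segBack d r₂ β p K i l (segEnd d i l) u v =
        ((Real.exp (-freeDecay d r₂ β (segStart d i l) (ctrlStart d i l) (lab u.out)) : ℝ) : ℂ) *
          gaugeEntry ((d.plan (d.j₀ + i))[l]).gauge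
            (fun q => blkRefBack d r₂ β p ((d.plan (d.j₀ + i))[l]).gauge i l q) u.out v.out) := by
  set G := ((d.plan (d.j₀ + i))[l]).gauge
  set a := segStart d i l
  set b := segEnd d i l
  set c := ctrlStart d i l
  obtain ⟨hac, hcb, hce⟩ := ctrl_mem hd hl
  obtain ⟨-, -, -, hg, hs⟩ := seg_times hd hl
  obtain ⟨hV0, hV, -, hQ⟩ := segRef_spec hd hp K i hl
  have hsub : Icc c b ⊆ Icc a b := Icc_subset_Icc hac le_rfl
  have hνc := fun s => (pathDamp_cont hd).continuousOn (s := s)
  -- before the control everything is free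
  have hfree : EqOn (segRef d r₂ β p K i l) (freeDiag d r₂ β K) (Icc a c) := by
    refine riccati_unique (hνc _) (fun s hs' => hV s ⟨hs'.1, hs'.2.trans hcb⟩)
      (freeDiag_riccati hd hs fun s hs' => ?_) hV0
    refine pathMat_stage_free hd p hl ⟨hs'.1, hs'.2.trans_lt hce⟩ (Or.inl ?_)
    have hε := speed_pos (one_le_idx hd i)
    have h2 : s - stageStart d i l ≤ 1 / speed (d.j₀ + i) := by
      have := hs'.2
      simp only [c, ctrlStart] at this
      linarith
    rw [le_div_iff₀ hε] at h2
    linarith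
  have hQc : segBack d r₂ β p K i l c = diagonal fun x =>
      ((Real.exp (-freeDecay d r₂ β a c (lab x.out)) : ℝ) : ℂ) := by
    have hF : IsBack (segRef d r₂ β p K i l)
        (fun s => diagonal fun x => ((Real.exp (-freeDecay d r₂ β a s (lab x.out)) : ℝ) : ℂ)) a c := by
      refine ⟨by simp [freeDecay], fun s hs' => ?_⟩
      rw [hfree hs', freeDiag, rdiag_mul, diagonal_neg]
      refine (hasDerivAt_rdiag fun x : PntK K =>
        (freeDecay_deriv hd (lab x.out) (a := a) hg hs'.1).neg.exp).congr_deriv ?_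
      exact congrArg diagonal (funext fun x => by simp)
    have hQ' : IsBack (segRef d r₂ β p K i l) (segBack d r₂ β p K i l) a c :=
      ⟨hQ.1, fun s hs' => hQ.2 s ⟨hs'.1, hs'.2.trans hcb⟩⟩
    have := back_trans ((riccati_cont hV).mono (Icc_subset_Icc le_rfl hcb)) le_rfl hac hQ' hF c
      ⟨hac, le_rfl⟩
    rwa [hQ.1, one_mul] at this
  -- afterwards it is the lift of the blocks
  have hWr : IsRiccati (fun s => gaugeMat K G (pathOp d p s)) (pathDamp d)
      (segRef d r₂ β p K i l) c b := fun s hs' => by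
    refine (hV s (hsub hs')).congr_deriv ?_
    rw [truncOp_seg hd p K hl (hsub hs')]
  have hWc : segRef d r₂ β p K i l c = diagonal fun x : PntK K =>
      ((freeRate d r₂ β (lab x.out) c : ℝ) : ℂ) := hfree ⟨hac, le_rfl⟩
  have h0 : ∀ x y : PntK K, ¬SameBlk G x.out y.out → segRef d r₂ β p K i l c x y = 0 := by
    intro x y hne
    rw [hWc, diagonal_apply_ne]
    rintro rfl
    exact hne (SameBlk.refl G x.out)
  choose Rb hRb hRb' using fun q => (blkRef_spec hd hp i hl G q).2.2.2
  have hlift := gauge_riccati_lift (A := pathOp d p) (Wb := fun s q => blkRef d r₂ β p G i l q s)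
    (hνc _) hWr h0 (fun q _ => (blkRef_spec hd hp i hl G q).2.1) fun x y _ => by
      rw [hWc, diagonal_apply]
      have e : gaugeEntry G (fun q => blkRef d r₂ β p G i l q c) x.out y.out =
          gaugeEntry G (fun q => diagBlk q fun w => freeRate d r₂ β (gaugeTriple G q w) c)
            x.out y.out :=
        gaugeEntry_congr (blkRef_spec hd hp i hl G _).1
      rw [e, gaugeEntry_diagBlk, gaugeTriple_lab]
      exact if_congr PntK.out_injective.eq_iff.symm rfl rfl
  obtain ⟨R', hR'⟩ := exists_back ((riccati_cont hV).mono hsub)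
  have hback := (gauge_back_lift (G := G) (Wb := fun s q => blkRef d r₂ β p G i l q s)
    (Rb := fun s q => Rb q s) ((riccati_cont hV).mono hsub)
    (gauge_riccati_blockDiag (hνc _) hWr h0) (fun s hs' x y hx => (hlift s hs' x y hx).1) hR'
    (fun q _ => hRb q)) b ⟨hcb, le_rfl⟩ u v
  rw [back_trans (riccati_cont hV) hac hcb hQ hR' b ⟨hcb, le_rfl⟩, hQc, diagonal_mul]
  refine ⟨fun h => by rw [hback.1 h, mul_zero], fun h => ?_⟩
  rw [hback.2 h]
  exact congrArg _ (gaugeEntry_congr (hRb' _))

/-- The backward map of a segment on the band blocks of its gauge. -/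
theorem segBack_entry (hd : d.Good r₂ β φ₀) {p : Param} (hp : InBox d p) {K : ℕ} (i : ℕ) {l : ℕ}
    (hl : l < (d.plan (d.j₀ + i)).length) {t : Lbl} (u v : PntK K)
    (hu : Complete K ((d.plan (d.j₀ + i))[l]).gauge u)
    (hq : blkLab ((d.plan (d.j₀ + i))[l]).gauge u.out ∈ bandBlocks ((d.plan (d.j₀ + i))[l]).gauge)
    (ht : (t (((d.plan (d.j₀ + i))[l]).gauge + 1), t (((d.plan (d.j₀ + i))[l]).gauge + 2)) =
      blkLab ((d.plan (d.j₀ + i))[l]).gauge u.out) :
    segBack d r₂ β p K i l (segEnd d i l) u v =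
      ((Real.exp (-(freeDecay d r₂ β (segStart d i l) (ctrlStart d i l) (lab u.out)) -
          stageShift d r₂ β p ((d.plan (d.j₀ + i))[l]).gauge i l t) : ℝ) : ℂ) *
        gaugeEntry ((d.plan (d.j₀ + i))[l]).gauge
          (extBlk (stageNorm d r₂ β p ((d.plan (d.j₀ + i))[l]).gauge i l)) u.out v.out *
        ((Real.exp (-(freeDecay d r₂ β (ctrlStart d i l) (segEnd d i l) (lab v.out))) : ℝ) : ℂ) := by
  rw [(segBack_lift hd hp i hl u v).2 hu]
  set G := ((d.plan (d.j₀ + i))[l]).gauge
  set c := ctrlStart d i l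
  set b := segEnd d i l
  rw [gaugeEntry_congr (N := fun q => Real.exp (-stageShift d r₂ β p G i l t) •
      (extBlk (stageNorm d r₂ β p G i l) q *
        diagBlk q fun w => Real.exp (-freeDecay d r₂ β c b (gaugeTriple G q w))))
      (blkRefBack_eq hd hp i hl G hq ht), gaugeEntry_real_smul,
    ← gaugeEntry_mul (K := K) u.out v.out hu, Finset.sum_eq_single v]
  · rw [gaugeEntry_diagBlk, if_pos rfl, gaugeTriple_lab, Complex.real_smul,
      sub_eq_add_neg (-_) (stageShift _ _ _ _ _ _ _ _), Real.exp_add, Complex.ofReal_mul]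
    ring
  · intro z _ hz
    rw [gaugeEntry_diagBlk, if_neg fun e => hz (PntK.out_injective e), mul_zero]
  · simp

end Band

open Band in
/-- The reference backward map on band rows and columns. -/
theorem segBack_band (hd : d.Good r₂ β φ₀) {p : Param} (hp : InBox d p) {K : ℕ} (hK : 40 ≤ K)
    (i : ℕ) {l : ℕ} (hl : l < (d.plan (d.j₀ + i)).length) (x : BPt) (y : PntK K) :
    let G := ((d.plan (d.j₀ + i))[l]).gauge
    let t := lab x.1.out
    segBack d r₂ β p K i l (segEnd d i l) (x.toK (by omega)) y =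
        ((Real.exp (-(freeDecay d r₂ β (segStart d i l) (ctrlStart d i l) t) -
              stageShift d r₂ β p G i l t) : ℝ) : ℂ) *
          gaugeEntry G (extBlk (stageNorm d r₂ β p G i l)) x.1.out y.out *
          ((Real.exp (-(freeDecay d r₂ β (ctrlStart d i l) (segEnd d i l) (lab y.out))) : ℝ) : ℂ) ∧
      segBack d r₂ β p K i l (segEnd d i l) y (x.toK (by omega)) =
        ((Real.exp (-(freeDecay d r₂ β (segStart d i l) (ctrlStart d i l) (lab y.out)) -
              stageShift d r₂ β p G i l t) : ℝ) : ℂ) *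
          gaugeEntry G (extBlk (stageNorm d r₂ β p G i l)) y.out x.1.out *
          ((Real.exp (-(freeDecay d r₂ β (ctrlStart d i l) (segEnd d i l) t)) : ℝ) : ℂ) := by
  intro G t
  set z := x.toK (K := K) (by omega) with hz
  have ho : z.out = x.1.out := rfl
  have hc : Complete K G z := by
    have h1 : lab x.1.out (G + 1) < 20 + 1 := (x.1.1.1 (G + 1)).2
    have h2 : lab x.1.out (G + 2) < 20 + 1 := (x.1.1.1 (G + 2)).2
    show lab z.out (G + 1) + lab z.out (G + 2) ≤ K
    rw [ho]
    omega
  have hq : blkLab G x.1.out ∈ bandBlocks G := by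
    unfold bandBlocks
    exact Finset.mem_image.2 ⟨lab x.1.out, x.2, rfl⟩
  refine ⟨segBack_entry hd hp i hl (t := t) z y hc hq rfl, ?_⟩
  by_cases h : SameBlk G z.out y.out
  · exact segBack_entry hd hp i hl (t := t) y z ((complete_of_same h).1 hc)
      (by rw [h.blkLab]; exact hq) h.blkLab.symm
  · rw [(segBack_lift hd hp i hl y z).1 fun h' => h h'.symm,
      gaugeEntry_of_not (y := x.1.out) fun h' => h (ho ▸ h'.symm), mul_zero, zero_mul]

end Vale.Agent.P225
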